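import Vale.Agent.P211.Local.Calc
import Vale.Agent.P211.Alg.Spectral.Curve

/-!
# P211: derivatives of `F` along a matrix field
-/

open Matrix
open scoped ContDiff

namespace Vale.Agent.P211

namespace Spectral

noncomputable section

variable {a : ℝ} {k : ℕ}

/-- The second differential of `F` as a bilinear form. -/
def D2B (a : ℝ) (k : ℕ) (W H K : M3) : ℝ :=
  trPow a k W ^ (1 / k - 1 : ℝ) *
      ∑ l ∈ Finset.range (k - 1), (shift a W ^ l * H * shift a W ^ (k - 2 - l) * K).trace -
    (k - 1) * trPow a k W ^ (1 / k - 2 : ℝ) *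
      ((shift a W ^ (k - 1) * H).trace * (shift a W ^ (k - 1) * K).trace)

theorem D2B_self (W H : M3) : D2B a k W H H = D2F a k W H := by
  rw [D2B, D2F, sq]

/-- The derivative of `DF` along a curve with velocity `H`, applied to a moving direction. -/
theorem hasDerivAt_DF_gen (hk : 1 ≤ k) {W V : ℝ → M3} {H A : M3} {t : ℝ}
    (hW : ∀ i j, HasDerivAt (fun s => W s i j) (H i j) t)
    (hV : ∀ i j, HasDerivAt (fun s => V s i j) (A i j) t) (hp : 0 < trPow a k (W t)) :
    HasDerivAt (fun s => DF a k (W s) (V s))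
      (D2B a k (W t) H (V t) + DF a k (W t) A) t := by
  have h1 := hasDerivAt_trPow_rpow (a := a) hW hp (1 / k - 1)
  have h2 := hasDerivAt_trace (hasDerivAt_mul
    (hasDerivAt_pow (hasDerivAt_shift (a := a) hW) (k - 1)) hV)
  have h3 := (h1.mul h2).neg
  simp only [DF, grad, Matrix.smul_mul, trace_smul, smul_eq_mul]
  refine h3.congr_deriv ?_
  have hk' : (k : ℝ) ≠ 0 := Nat.cast_ne_zero.2 (by omega)
  have he : (1 / (k : ℝ) - 1 - 1) = 1 / k - 2 := by ring
  rw [he, dpow_neg, Matrix.neg_mul, trace_add, trace_neg]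
  simp only [D2B, dpow, Finset.sum_mul, trace_sum, Nat.sub_sub]
  norm_num only
  field_simp
  ring

theorem DF_add (W H K : M3) : DF a k W (H + K) = DF a k W H + DF a k W K := by
  simp [DF, Matrix.mul_add, trace_add]; ring

theorem DF_smul (W : M3) (c : ℝ) (H : M3) : DF a k W (c • H) = c * DF a k W H := by
  simp [DF, trace_smul]

theorem DF_sub (W H K : M3) : DF a k W (H - K) = DF a k W H - DF a k W K := by
  simp [DF, Matrix.mul_sub, trace_sub]; ring

theorem DF_sum {τ : Type*} (s : Finset τ) (W : M3) (H : τ → M3) :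
    DF a k W (∑ t ∈ s, H t) = ∑ t ∈ s, DF a k W (H t) := by
  simp [DF, Matrix.mul_sum, trace_sum, Finset.sum_neg_distrib]

theorem D2B_add_left (W H H' K : M3) :
    D2B a k W (H + H') K = D2B a k W H K + D2B a k W H' K := by
  simp only [D2B, Matrix.mul_add, Matrix.add_mul, trace_add, Finset.sum_add_distrib]
  ring

theorem D2B_smul_left (W : M3) (c : ℝ) (H K : M3) :
    D2B a k W (c • H) K = c * D2B a k W H K := by
  simp only [D2B, Matrix.mul_smul, Matrix.smul_mul, trace_smul, smul_eq_mul, ← Finset.mul_sum]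
  ring

theorem D2B_sum_left {τ : Type*} (s : Finset τ) (W : M3) (H : τ → M3) (K : M3) :
    D2B a k W (∑ t ∈ s, H t) K = ∑ t ∈ s, D2B a k W (H t) K := by
  simp only [D2B, Finset.sum_mul, trace_sum, Finset.sum_sub_distrib,
    Finset.mul_sum]
  rw [Finset.sum_comm]

theorem D2B_add_right (W H K K' : M3) :
    D2B a k W H (K + K') = D2B a k W H K + D2B a k W H K' := by
  simp only [D2B, Matrix.mul_add, trace_add, Finset.sum_add_distrib]
  ring

theorem D2B_smul_right (W : M3) (c : ℝ) (H K : M3) :
    D2B a k W H (c • K) = c * D2B a k W H K := by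
  simp only [D2B, Matrix.mul_smul, trace_smul, smul_eq_mul, ← Finset.mul_sum]
  ring

theorem D2B_sum_right {τ : Type*} (s : Finset τ) (W : M3) (H : M3) (K : τ → M3) :
    D2B a k W H (∑ t ∈ s, K t) = ∑ t ∈ s, D2B a k W H (K t) := by
  simp only [D2B, trace_sum, Finset.sum_sub_distrib, Finset.mul_sum]
  rw [Finset.sum_comm]

theorem shift_pow_comm (W : M3) (n : ℕ) : shift a W ^ n * W = W * shift a W ^ n := by
  have h : Commute (shift a W) W := by
    show shift a W * W = W * shift a W
    simp [shift, Matrix.mul_sub, Matrix.sub_mul]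
  exact (h.pow_left n).eq

/-- The first differential annihilates commutators with `W`. -/
theorem DF_comm (W o : M3) : DF a k W (o * W - W * o) = 0 := by
  simp only [DF, grad, Matrix.smul_mul, Matrix.mul_sub, trace_sub, trace_smul, smul_eq_mul]
  rw [← Matrix.mul_assoc, trace_mul_comm (shift a W ^ (k - 1) * o) W, ← Matrix.mul_assoc,
    ← Matrix.mul_assoc, shift_pow_comm W]
  simp

/-- The differentiated invariance of `F` under rotations. -/
theorem D2B_comm (W o A : M3) :
    D2B a k W (o * W - W * o) A + DF a k W (o * A - A * o) = 0 := by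
  have hsh : o * W - W * o = -(o * shift a W - shift a W * o) := by
    simp only [shift, Matrix.mul_sub, Matrix.sub_mul, Matrix.mul_smul, Matrix.smul_mul,
      Matrix.mul_one, Matrix.one_mul]
    abel
  set B := shift a W with hB
  have htel : ∑ l ∈ Finset.range (k - 1), B ^ l * (o * W - W * o) * B ^ (k - 2 - l) =
      -(o * B ^ (k - 1) - B ^ (k - 1) * o) := by
    have e : ∀ l ∈ Finset.range (k - 1), B ^ l * (o * W - W * o) * B ^ (k - 2 - l) =
        B ^ (l + 1) * o * B ^ (k - 1 - (l + 1)) - B ^ l * o * B ^ (k - 1 - l) := by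
      intro l hl
      have := Finset.mem_range.1 hl
      rw [hsh, show k - 1 - (l + 1) = k - 2 - l by omega, show k - 1 - l = k - 2 - l + 1 by omega,
        pow_succ B l, pow_succ' B (k - 2 - l)]
      simp only [Matrix.mul_neg, Matrix.neg_mul, Matrix.mul_sub, Matrix.sub_mul, Matrix.mul_assoc]
      abel
    rw [Finset.sum_congr rfl e,
      Finset.sum_range_sub (fun l => B ^ l * o * B ^ (k - 1 - l)) (k - 1)]
    simp
  have h0 : (B ^ (k - 1) * (o * W - W * o)).trace = 0 := by
    rw [Matrix.mul_sub, trace_sub, ← Matrix.mul_assoc, trace_mul_comm (B ^ (k - 1) * o) W,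
      ← Matrix.mul_assoc, ← Matrix.mul_assoc, hB, shift_pow_comm W]
    simp
  simp only [D2B, ← hB, h0, zero_mul, mul_zero, sub_zero, ← trace_sum, ← Finset.sum_mul, htel, DF,
    grad, Matrix.smul_mul, trace_smul, smul_eq_mul]
  simp only [Matrix.neg_mul, trace_neg, Matrix.sub_mul, Matrix.mul_sub, trace_sub,
    ← Matrix.mul_assoc]
  rw [trace_mul_comm (B ^ (k - 1) * A) o]
  simp only [← Matrix.mul_assoc]
  ring

end

end Spectral

namespace Local

noncomputable section

/-- The scalar Laplacian in coordinates. -/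
def lap (G : Euc4 → M4) (f : Euc4 → ℝ) (x : Euc4) : ℝ :=
  ∑ i, ∑ j, (G x)⁻¹ i j * (pd (pd f j) i x - ∑ p, gam G x p i j * pd f p x)

variable {a : ℝ} {k : ℕ} {U : Set Euc4} {x : Euc4}

theorem hasDerivAt_line {f : Euc4 → ℝ} (hf : DifferentiableAt ℝ f x) (m : Fin 4) :
    HasDerivAt (fun t : ℝ => f (x + t • EuclideanSpace.single m 1)) (pd f m x) 0 := by
  have h2 : HasDerivAt (fun t : ℝ => x + t • EuclideanSpace.single m (1 : ℝ))
      (EuclideanSpace.single m (1 : ℝ)) 0 := by
    simpa using ((hasDerivAt_id (0 : ℝ)).smul_const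
      (EuclideanSpace.single m (1 : ℝ))).const_add x
  have h1 : HasFDerivAt f (fderiv ℝ f x)
      (x + (0 : ℝ) • EuclideanSpace.single m (1 : ℝ)) := by simpa using hf.hasFDerivAt
  exact h1.comp_hasDerivAt 0 h2

theorem pd_eq_of_line {f : Euc4 → ℝ} (hf : DifferentiableAt ℝ f x) {m : Fin 4} {c : ℝ}
    (h : HasDerivAt (fun t : ℝ => f (x + t • EuclideanSpace.single m 1)) c 0) : pd f m x = c :=
  (hasDerivAt_line hf m).unique h

theorem differentiableAt_F_comp {W : Euc4 → M3} (hW : MDiff W x)
    (hp : 0 < Spectral.trPow a k (W x)) :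
    DifferentiableAt ℝ (fun y => Spectral.F a k (W y)) x := by
  have h : DifferentiableAt ℝ (fun y => Spectral.trPow a k (W y)) x := by
    simp only [Spectral.trPow, Matrix.trace, Matrix.diag]
    refine DifferentiableAt.fun_sum fun i _ => ?_
    have hs : MDiff (fun y => Spectral.shift a (W y)) x := fun i j => by
      simpa [Spectral.shift] using (hW i j).const_sub ((a • (1 : M3)) i j)
    have hpow : ∀ n, MDiff (fun y => Spectral.shift a (W y) ^ n) x := by
      intro n
      induction n with
      | zero => intro i j; simp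
      | succ n ih => simpa only [pow_succ] using ih.mul hs
    exact hpow k i i
  exact (h.rpow_const (Or.inl hp.ne')).sub_const a

/-- The gradient of `F` along a matrix field. -/
theorem pd_F (hk : k ≠ 0) {W : Euc4 → M3} (hW : MDiff W x)
    (hp : 0 < Spectral.trPow a k (W x)) (m : Fin 4) :
    pd (fun y => Spectral.F a k (W y)) m x = Spectral.DF a k (W x) (pdm W m x) := by
  refine pd_eq_of_line (differentiableAt_F_comp hW hp) ?_
  have h := Spectral.hasDerivAt_F (a := a) hk (W := fun t => W (x + t • EuclideanSpace.single m 1))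
    (H := pdm W m x) (t := 0) (fun i j => hasDerivAt_line (hW i j) m) (by simpa using hp)
  simpa using h

/-- The derivative of `DF` along matrix fields. -/
theorem pd_DF (hk : 1 ≤ k) {W V : Euc4 → M3} (hW : MDiff W x) (hV : MDiff V x)
    (hp : 0 < Spectral.trPow a k (W x)) (m : Fin 4) :
    pd (fun y => Spectral.DF a k (W y) (V y)) m x =
      Spectral.D2B a k (W x) (pdm W m x) (V x) + Spectral.DF a k (W x) (pdm V m x) := by
  have hs : MDiff (fun y => Spectral.shift a (W y)) x := fun i j => by
    simpa [Spectral.shift] using (hW i j).const_sub ((a • (1 : M3)) i j)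
  have hpow : ∀ n, MDiff (fun y => Spectral.shift a (W y) ^ n) x := by
    intro n
    induction n with
    | zero => intro i j; simp
    | succ n ih => simpa only [pow_succ] using ih.mul hs
  have hd : DifferentiableAt ℝ (fun y => Spectral.DF a k (W y) (V y)) x := by
    simp only [Spectral.DF, Spectral.grad, Matrix.smul_mul, trace_smul, smul_eq_mul]
    refine (DifferentiableAt.mul ?_ ?_).neg
    · refine DifferentiableAt.rpow_const ?_ (Or.inl hp.ne')
      simp only [Spectral.trPow, Matrix.trace, Matrix.diag]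
      exact DifferentiableAt.fun_sum fun i _ => hpow k i i
    · simp only [Matrix.trace, Matrix.diag]
      exact DifferentiableAt.fun_sum fun i _ => (hpow (k - 1)).mul hV i i
  refine pd_eq_of_line hd ?_
  have h := Spectral.hasDerivAt_DF_gen (a := a) hk
    (W := fun t => W (x + t • EuclideanSpace.single m 1))
    (V := fun t => V (x + t • EuclideanSpace.single m 1))
    (H := pdm W m x) (A := pdm V m x) (t := 0)
    (fun i j => hasDerivAt_line (hW i j) m) (fun i j => hasDerivAt_line (hV i j) m)
    (by simpa using hp)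
  simpa using h

end

end Local

end Vale.Agent.P211
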