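import Vale.Agent.P211.Local.Weitz.Field
import Vale.Agent.P211.Local.Weitz.Calc

/-!
# P211: the differential inequality for `F` of a Weyl block in a chart
-/

open Matrix
open scoped ContDiff

namespace Vale.Agent.P211.Local

open SelfDual (IsCurvTen)

noncomputable section

/-- The squared length of the gradient in coordinates. -/
def gradSq (G : Euc4 → M4) (f : Euc4 → ℝ) (x : Euc4) : ℝ :=
  ∑ i, ∑ j, (G x)⁻¹ i j * (pd f i x * pd f j x)

variable {J K : Fin 3 → M4} {G P : Euc4 → M4} {U : Set Euc4}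
variable (hG : IsMetricOn G U) (hP : IsFrameOn G P U) {a : ℝ} {k : ℕ}
include hG hP

omit hG in
theorem inv_eq {x : Euc4} (hx : x ∈ U) (i j : Fin 4) :
    (G x)⁻¹ i j = ∑ m, P x i m * P x j m := by
  have e : (G x)⁻¹ = P x * (P x).transpose := by
    refine Matrix.inv_eq_left_inv ?_
    rw [Matrix.mul_assoc, frame_mul_inv hP hx]
  rw [e]
  rfl

variable (hk : 1 ≤ k) (hpos : ∀ y ∈ U, 0 < Spectral.trPow a k (wB J G P y))
include hk hpos

theorem pd_F_wB {x : Euc4} (hx : x ∈ U) (i : Fin 4) :
    pd (fun y => Spectral.F a k (wB J G P y)) i x =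
      Spectral.DF a k (wB J G P x) (dW J G P i x) := by
  rw [pd_F (by omega) ((smooth_wB hG hP).diff hG.isOpen hx) (hpos x hx)]
  have h := Spectral.DF_comm (a := a) (k := k) (wB J G P x) (oM J G P i x)
  rw [Spectral.DF_sub] at h
  simp only [dW, Spectral.DF_add, Spectral.DF_sub]
  linarith

theorem gradSq_F {x : Euc4} (hx : x ∈ U) :
    gradSq G (fun y => Spectral.F a k (wB J G P y)) x =
      ∑ m, Spectral.DF a k (wB J G P x) (dWf J G P x m) ^ 2 := by
  simp only [gradSq, pd_F_wB hG hP hk hpos hx, inv_eq hP hx, dWf, Spectral.DF_sum,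
    Spectral.DF_smul, sq, Finset.sum_mul, Finset.mul_sum]
  rw [Finset.sum_congr rfl fun i _ => Finset.sum_comm, Finset.sum_comm]
  refine Finset.sum_congr rfl fun m _ => ?_
  exact Finset.sum_congr rfl fun i _ => Finset.sum_congr rfl fun j _ => by ring

/-- The Laplacian of `F` of a Weyl block. -/
theorem lap_F {x : Euc4} (hx : x ∈ U) :
    lap G (fun y => Spectral.F a k (wB J G P y)) x =
      ∑ m, Spectral.D2F a k (wB J G P x) (dWf J G P x m) +
        Spectral.DF a k (wB J G P x) (∑ n, ddWf J G P x n n) := by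
  have hU := hG.isOpen
  set W := wB J G P x with hW
  have h2 : ∀ i j, pd (pd (fun y => Spectral.F a k (wB J G P y)) j) i x -
      ∑ p, gam G x p i j * pd (fun y => Spectral.F a k (wB J G P y)) p x =
      Spectral.D2B a k W (dW J G P i x) (dW J G P j x) +
        Spectral.DF a k W (ddW J G P i j x) := by
    intro i j
    have e : pd (pd (fun y => Spectral.F a k (wB J G P y)) j) i x =
        pd (fun y => Spectral.DF a k (wB J G P y) (dW J G P j y)) i x :=
      pd_congr (f := pd (fun y => Spectral.F a k (wB J G P y)) j) hU hx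
        (fun y hy => pd_F_wB hG hP hk hpos hy j) i
    rw [e, pd_DF hk ((smooth_wB hG hP).diff hU hx) ((smooth_dW hG hP j).diff hU hx) (hpos x hx)]
    simp only [pd_F_wB hG hP hk hpos hx, ← hW]
    have hsplit : pdm (wB J G P) i x = dW J G P i x + (oM J G P i x * W - W * oM J G P i x) := by
      simp only [dW, ← hW]
      abel
    have hc := Spectral.D2B_comm (a := a) (k := k) W (oM J G P i x) (dW J G P j x)
    rw [hsplit, Spectral.D2B_add_left]
    rw [Spectral.DF_sub] at hc
    simp only [ddW, Spectral.DF_sub, Spectral.DF_add, Spectral.DF_sum, Spectral.DF_smul]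
    linarith
  simp only [lap, h2, inv_eq hP hx, mul_add, Finset.sum_add_distrib, dWf, ddWf,
    ← Spectral.D2B_self, Spectral.D2B_sum_left, Spectral.D2B_sum_right, Spectral.D2B_smul_left,
    Spectral.D2B_smul_right, Spectral.DF_sum, Spectral.DF_smul, Finset.sum_mul]
  congr 1
  · rw [Finset.sum_congr rfl fun i _ => Finset.sum_comm, Finset.sum_comm]
    refine Finset.sum_congr rfl fun m _ => ?_
    rw [Finset.sum_comm]
    refine Finset.sum_congr rfl fun i _ => ?_
    rw [Finset.mul_sum]
    exact Finset.sum_congr rfl fun j _ => by ring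
  · rw [Finset.sum_congr rfl fun i _ => Finset.sum_comm, Finset.sum_comm]

omit hk hpos in
/-- The differential inequality behind the scalar lemma, for either Weyl half. -/
theorem lap_F_ge (hk : 2 ≤ k) (ha : 0 ≤ a) (hE : IsEinsteinThree G U) (h : IsSplit J K)
    (hs : ∀ y ∈ U, (wB J G P y).IsSymm) (htr : ∀ y ∈ U, (wB J G P y).trace = 0)
    (hadm : ∀ y ∈ U, (Spectral.shift a (wB J G P y)).PosDef) {e : ℝ} (he : 0 ≤ e)
    {x : Euc4} (hx : x ∈ U) {t : ℝ} (ht : Spectral.IsTop (wB J G P x) t) :
    2 / 3 * gradSq G (fun y => Spectral.F a k (wB J G P y)) x ≤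
      (Spectral.F a k (wB J G P x) + e) * (lap G (fun y => Spectral.F a k (wB J G P y)) x -
        (6 * t * (1 - t) - Spectral.reactErr a t k)) := by
  have hpos : ∀ y ∈ U, 0 < Spectral.trPow a k (wB J G P y) :=
    fun y hy => Spectral.trPow_pos (hs y hy) (hadm y hy)
  have hsd : ∀ m, (dWf J G P x m).IsSymm := fun m => by
    rw [dWf_eq hG hP hx h]
    exact block_symm (isCurvTen_covFrame hG hx m) J
  have hdiv : ∀ i, ∑ j, J j *ᵥ (fun m => dWf J G P x m i j) = 0 := fun i => by
    simp only [dWf_eq hG hP hx h]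
    exact div_weyl hG hP hx hE h i
  have hk1 : 1 ≤ k := le_trans (by norm_num) hk
  rw [gradSq_F hG hP hk1 hpos hx, lap_F hG hP hk1 hpos hx,
    weitzenboeck hG hP hx hE h (hs x hx) (htr x hx)]
  refine (Spectral.kato_F hk ha he (hs x hx) (hadm x hx) (htr x hx) h.triple _ hsd hdiv).trans ?_
  refine mul_le_mul_of_nonneg_left ?_ ?_
  · have := Spectral.le_DF_react_top hk1 (hs x hx) (hadm x hx) (htr x hx) ht
    linarith
  · have := Spectral.isTop_le_F (k := k) hk1 (hs x hx) (hadm x hx) ht
    linarith [ht.nonneg (htr x hx)]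

end

end Vale.Agent.P211.Local
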