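import Vale.Agent.P211.Local.Block
import Vale.Agent.P211.Alg.Spectral.General

/-!
# P211: the algebra of the Weitzenböck formula

Squaring the divergence identity turns the commutator of second derivatives into the zero order
term `6 W - 6 W² + 2 |W|²`.
-/

open Matrix

namespace Vale.Agent.P211.Local

open SelfDual (IsCurvTen flat flatVec ricTen pair)
open Spectral (IsTriple)

noncomputable section

variable {J K : Fin 3 → M4}

theorem pair_triple (hJ : IsTriple J) (a b : Fin 3) : pair (J a) (J b) = 4 * (1 : M3) a b := by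
  have ht : ∀ c, (J c).trace = 0 := fun c => by
    have := congrArg Matrix.trace (hJ.skew c)
    rw [trace_neg, trace_transpose] at this
    linarith
  rw [SelfDual.pair_eq_trace, hJ.skew, Matrix.neg_mul, trace_neg]
  fin_cases a <;> fin_cases b <;>
    simp [hJ.sq, hJ.mul01, hJ.mul12, hJ.mul20, hJ.mul10, hJ.mul21, hJ.mul02, ht]

theorem pair_add_right (A B C : M4) : pair A (B + C) = pair A B + pair A C := by
  simp [SelfDual.pair_eq_trace, Matrix.mul_add, trace_add]

theorem adMat_add (X Y : M4) : adMat J (X + Y) = adMat J X + adMat J Y := by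
  ext a d
  simp only [adMat, of_apply, Matrix.add_apply, Matrix.add_mul, Matrix.mul_add,
    SelfDual.pair_eq_trace, Matrix.mul_sub, trace_sub, trace_add]
  ring

theorem adMat_smul (c : ℝ) (X : M4) : adMat J (c • X) = c • adMat J X := by
  ext a d
  simp only [adMat, of_apply, Matrix.smul_apply, Matrix.smul_mul, Matrix.mul_smul,
    SelfDual.pair_eq_trace, Matrix.mul_sub, trace_sub, trace_smul, smul_eq_mul]
  ring

theorem adMat_sub (X Y : M4) : adMat J (X - Y) = adMat J X - adMat J Y := by
  rw [sub_eq_add_neg, adMat_add, ← neg_one_smul ℝ Y, adMat_smul, neg_one_smul, ← sub_eq_add_neg]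

theorem adMat_sum {τ : Type*} (s : Finset τ) (X : τ → M4) :
    adMat J (∑ t ∈ s, X t) = ∑ t ∈ s, adMat J (X t) := by
  classical
  induction s using Finset.induction_on with
  | empty => simpa using adMat_smul (J := J) 0 0
  | insert t s ht ih => rw [Finset.sum_insert ht, adMat_add, ih, Finset.sum_insert ht]

/-- The matrix of the commutator reverses brackets. -/
theorem IsSplit.adMat_bracket (h : IsSplit J K) {X Y : M4} (hX : X.transpose = -X)
    (hY : Y.transpose = -Y) :
    adMat J (X * Y - Y * X) = adMat J Y * adMat J X - adMat J X * adMat J Y := by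
  ext a d
  have e : (X * Y - Y * X) * J a - J a * (X * Y - Y * X) =
      (X * (Y * J a - J a * Y) - (Y * J a - J a * Y) * X) -
        (Y * (X * J a - J a * X) - (X * J a - J a * X) * Y) := by
    simp only [Matrix.mul_sub, Matrix.sub_mul, Matrix.mul_assoc]
    abel
  have e1 : ∀ Z W' : M4, Z.transpose = -Z → W'.transpose = -W' →
      pair (J d) (Z * (W' * J a - J a * W') - (W' * J a - J a * W') * Z) =
        4 * ∑ c, adMat J W' a c * adMat J Z c d := by
    intro Z W' hZ hW
    have hc : ∀ c, (pair (J d) (Z * J c - J c * Z)) = 4 * adMat J Z c d := fun c => by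
      simp only [adMat, of_apply]
      ring
    rw [h.ad_eq hW a, Matrix.mul_sum, Finset.sum_mul, ← Finset.sum_sub_distrib,
      Finset.sum_congr rfl fun c _ => show Z * adMat J W' a c • J c - adMat J W' a c • J c * Z =
        adMat J W' a c • (Z * J c - J c * Z) by rw [Matrix.mul_smul, Matrix.smul_mul, smul_sub],
      SelfDual.pair_sum_right, Finset.mul_sum]
    exact Finset.sum_congr rfl fun c _ => by rw [hc]; ring
  have e2 : ∀ A B : M4, pair (J d) (A - B) = pair (J d) A - pair (J d) B := fun A B => by
    simp [SelfDual.pair_eq_trace, Matrix.mul_sub, trace_sub]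
  rw [Matrix.sub_apply, mul_apply, mul_apply]
  conv_lhs => simp only [adMat, of_apply]
  rw [e, e2, e1 X Y hX hY, e1 Y X hY hX]
  ring

/-- The commutators of a triple with itself. -/
theorem adMat_triple (hJ : IsTriple J) (d : Fin 3) :
    adMat J (J d) = ![!![0, 0, 0; 0, 0, 2; 0, -2, 0], !![0, 0, -2; 0, 0, 0; 2, 0, 0],
      !![0, 2, 0; -2, 0, 0; 0, 0, 0]] d := by
  ext a e
  have hp := pair_triple hJ
  have hn : ∀ A B : M4, pair A (-B) = -pair A B := fun A B => by
    simp [SelfDual.pair_eq_trace]
  fin_cases d <;> fin_cases a <;> fin_cases e <;>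
    simp [adMat, hJ.mul01, hJ.mul12, hJ.mul20, hJ.mul10, hJ.mul21, hJ.mul02, sub_eq_add_neg,
      pair_add_right, hn, hp, one_apply] <;>
    norm_num

/-- The curvature operator on a form of a split in block form. -/
theorem curv_apply (h : IsSplit J K) {R : Ten4} (hR : IsCurvTen R)
    (hmix : block R J K = 0) (e : Fin 3) :
    (Matrix.of fun k l => ∑ n, ∑ m, J e n m * R n m k l : M4) =
      ∑ d, (2 * block R J J e d) • J d := by
  set M : M4 := Matrix.of fun k l => ∑ n, ∑ m, J e n m * R n m k l with hMdef
  have hMskew : M.transpose = -M := by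
    ext p q
    simp only [hMdef, transpose_apply, Matrix.neg_apply, of_apply, hR.anti34 _ _ p q, mul_neg,
      Finset.sum_neg_distrib]
  conv_lhs => rw [h.decomp _ hMskew]
  refine Finset.sum_congr rfl fun j _ => ?_
  have hp : ∀ L : Fin 3 → M4, pair (L j) M = 8 * block R J L e j := by
    intro L
    simp only [pair, hMdef, block, of_apply]
    rw [← mul_assoc, show (8 : ℝ) * (1 / 8) = 1 by norm_num, one_mul]
    calc ∑ k, ∑ l, L j k l * ∑ n, ∑ m, J e n m * R n m k l
        = ∑ kl : Fin 4 × Fin 4, ∑ nm : Fin 4 × Fin 4,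
            J e nm.1 nm.2 * R nm.1 nm.2 kl.1 kl.2 * L j kl.1 kl.2 := by
          simp only [Fintype.sum_prod_type, Finset.mul_sum]
          exact Finset.sum_congr rfl fun k _ => Finset.sum_congr rfl fun l _ =>
            Finset.sum_congr rfl fun n _ => Finset.sum_congr rfl fun m _ => by ring
      _ = _ := by rw [Finset.sum_comm]; simp only [Fintype.sum_prod_type]
  rw [hp, hp, hmix, Matrix.zero_apply]
  simp only [mul_zero, zero_div, zero_smul, add_zero]
  congr 1
  ring

/-- The Weitzenböck identity from the differentiated divergence identity and the Ricci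
identity. -/
theorem weitz_alg (h : IsSplit J K) {R : Ten4} (hR : IsCurvTen R) (hmix : block R J K = 0)
    {W : M3} (hW : W = block R J J - 1) (hWs : W.IsSymm) (htr : W.trace = 0)
    (H : Fin 4 → Fin 4 → M3)
    (hdiv : ∀ n b i, ∑ j, ∑ m, J j b m * H n m i j = 0)
    (hanti : ∀ n m, H n m - H m n = -(adMat J (Matrix.of fun k l => R n m k l) * W -
      W * adMat J (Matrix.of fun k l => R n m k l))) :
    ∑ n, H n n = Spectral.react W := by
  have hJ := h.triple
  set S : Fin 3 → M3 := fun e => ∑ n, ∑ m, J e n m • H n m with hS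
  -- the divergence identity squared
  have hsq : ∀ c i, ∑ j, ∑ n, ∑ m, (J c * J j) n m * H n m i j = 0 := by
    intro c i
    have e0 : ∑ n, ∑ b, J c n b * (∑ j, ∑ m, J j b m * H n m i j) = 0 := by
      simp [hdiv]
    rw [← e0]
    simp only [mul_apply, Finset.mul_sum, Finset.sum_mul]
    rw [Finset.sum_comm]
    refine Finset.sum_congr rfl fun n _ => ?_
    conv_rhs => rw [Finset.sum_comm]
    refine Finset.sum_congr rfl fun j _ => ?_
    rw [Finset.sum_comm]
    exact Finset.sum_congr rfl fun b _ => Finset.sum_congr rfl fun m _ => by ring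
  -- the antisymmetric part
  have hSe : ∀ e, S e = -∑ d, block R J J e d •
      (adMat J (J d) * W - W * adMat J (J d)) := by
    intro e
    have h2 : (2 : ℝ) • S e = ∑ n, ∑ m, J e n m • (H n m - H m n) := by
      have hsw : ∑ n, ∑ m, J e n m • H m n = -S e := by
        rw [Finset.sum_comm]
        simp only [hS, ← Finset.sum_neg_distrib]
        refine Finset.sum_congr rfl fun n _ => Finset.sum_congr rfl fun m _ => ?_
        rw [SelfDual.skew_apply (hJ.skew e) n m, neg_smul]
      simp only [smul_sub, Finset.sum_sub_distrib, hsw, sub_neg_eq_add, two_smul]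
      rfl
    have h3 : ∑ n, ∑ m, J e n m • adMat J (Matrix.of fun k l => R n m k l) =
        (2 : ℝ) • ∑ d, block R J J e d • adMat J (J d) := by
      have hX : (∑ n, ∑ m, J e n m • (Matrix.of fun k l => R n m k l) : M4) =
          ∑ d, (2 * block R J J e d) • J d := by
        rw [← curv_apply h hR hmix e]
        ext k l
        simp [Matrix.sum_apply]
      have h4 := congrArg (adMat J) hX
      simp only [adMat_sum, adMat_smul, mul_smul] at h4
      rw [h4, Finset.smul_sum]
    have h5 : (2 : ℝ) • S e = (2 : ℝ) • -∑ d, block R J J e d •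
        (adMat J (J d) * W - W * adMat J (J d)) := by
      rw [h2]
      have h6 := congrArg (fun A : M3 => A * W - W * A) h3
      simp only [Finset.sum_mul, Finset.mul_sum, Matrix.smul_mul, Matrix.mul_smul,
        ← Finset.sum_sub_distrib, ← smul_sub] at h6
      simp only [hanti, smul_neg, Finset.sum_neg_distrib, h6]
    exact smul_right_injective _ (two_ne_zero' ℝ) h5
  have hlap : ∀ i, (∑ n, H n n) i 0 = S 2 i 1 - S 1 i 2 ∧
      (∑ n, H n n) i 1 = S 0 i 2 - S 2 i 0 ∧ (∑ n, H n n) i 2 = S 1 i 0 - S 0 i 1 := by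
    intro i
    have h0 := hsq 0 i
    have h1 := hsq 1 i
    have h2 := hsq 2 i
    simp [Fin.sum_univ_three, hJ.sq, hJ.mul01, hJ.mul12, hJ.mul20, hJ.mul10, hJ.mul21, hJ.mul02,
      one_apply] at h0 h1 h2
    simp only [hS, Matrix.sum_apply, Matrix.smul_apply, smul_eq_mul]
    exact ⟨by linarith, by linarith, by linarith⟩
  have hB : block R J J = W + 1 := by rw [hW, sub_add_cancel]
  have s10 : W 1 0 = W 0 1 := hWs.apply 0 1
  have s20 : W 2 0 = W 0 2 := hWs.apply 0 2
  have s21 : W 2 1 = W 1 2 := hWs.apply 1 2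
  have s22 : W 2 2 = -W 0 0 - W 1 1 := by
    simp [Matrix.trace, Fin.sum_univ_three] at htr
    linarith
  ext i c
  obtain ⟨l0, l1, l2⟩ := hlap i
  fin_cases c
  · show (∑ n, H n n) i 0 = Spectral.react W i 0
    rw [l0, hSe, hSe]
    fin_cases i <;> simp [hB, adMat_triple hJ, Spectral.react, Fin.sum_univ_three, mul_apply,
      Matrix.trace, Matrix.vecMul, dotProduct, s10, s20, s21, s22] <;> ring
  · show (∑ n, H n n) i 1 = Spectral.react W i 1
    rw [l1, hSe, hSe]
    fin_cases i <;> simp [hB, adMat_triple hJ, Spectral.react, Fin.sum_univ_three, mul_apply,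
      Matrix.trace, Matrix.vecMul, dotProduct, s10, s20, s21, s22] <;> ring
  · show (∑ n, H n n) i 2 = Spectral.react W i 2
    rw [l2, hSe, hSe]
    fin_cases i <;> simp [hB, adMat_triple hJ, Spectral.react, Fin.sum_univ_three, mul_apply,
      Matrix.trace, Matrix.vecMul, dotProduct, s10, s20, s21, s22] <;> ring

end

end Vale.Agent.P211.Local
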