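import Vale.Agent.P211.Local.Weitz.Alg

/-!
# P211: covariant derivatives of a Weyl block in a frame, Ricci identity, squared divergence
-/

open Matrix
open scoped ContDiff

namespace Vale.Agent.P211.Local

open SelfDual (IsCurvTen flat flatVec kron ricTen pair)

noncomputable section

/-- A Weyl block in the frame `P`. -/
def wB (J : Fin 3 → M4) (G P : Euc4 → M4) (y : Euc4) : M3 :=
  block (frameRiem G P y) J J - 1

/-- The connection matrix on a triple. -/
def oM (J : Fin 3 → M4) (G P : Euc4 → M4) (i : Fin 4) (y : Euc4) : M3 :=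
  adMat J (omega G P i y)

/-- The covariant derivative of a Weyl block. -/
def dW (J : Fin 3 → M4) (G P : Euc4 → M4) (i : Fin 4) (y : Euc4) : M3 :=
  pdm (wB J G P) i y - oM J G P i y * wB J G P y + wB J G P y * oM J G P i y

/-- The second covariant derivative of a Weyl block. -/
def ddW (J : Fin 3 → M4) (G P : Euc4 → M4) (i j : Fin 4) (y : Euc4) : M3 :=
  pdm (dW J G P j) i y - oM J G P i y * dW J G P j y + dW J G P j y * oM J G P i y -
    ∑ p, gam G y p i j • dW J G P p y

/-- The covariant derivative of a Weyl block in the frame. -/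
def dWf (J : Fin 3 → M4) (G P : Euc4 → M4) (y : Euc4) (m : Fin 4) : M3 :=
  ∑ t, P y t m • dW J G P t y

/-- The second covariant derivative of a Weyl block in the frame. -/
def ddWf (J : Fin 3 → M4) (G P : Euc4 → M4) (y : Euc4) (n m : Fin 4) : M3 :=
  ∑ i, ∑ j, (P y i n * P y j m) • ddW J G P i j y

variable {J K : Fin 3 → M4} {G P : Euc4 → M4} {U : Set Euc4}
variable (hG : IsMetricOn G U) (hP : IsFrameOn G P U)
include hG hP

theorem smooth_omega (i : Fin 4) : MSmooth (omega G P i) U :=
  (hP.smooth.transpose.mul hG.smooth).mul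
    (((hG.smooth_gamMat i).mul hP.smooth).add (hP.smooth.pdm hG.isOpen i))

theorem smooth_oM (i : Fin 4) : MSmooth (oM J G P i) U := by
  intro a d
  simp only [oM, adMat, of_apply, pair, Matrix.sub_apply, mul_apply]
  refine ContDiffOn.div_const (ContDiffOn.sum fun p _ => ContDiffOn.sum fun q _ =>
    contDiffOn_const.mul (ContDiffOn.sub (ContDiffOn.sum fun c _ => ?_)
      (ContDiffOn.sum fun c _ => ?_))) _
  · exact (smooth_omega hG hP i p c).mul contDiffOn_const
  · exact contDiffOn_const.mul (smooth_omega hG hP i c q)

theorem smooth_flat : MSmooth (fun y => flat (frameRiem G P y)) U := by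
  have hK : MSmooth (fun y => kron (P y)) U := fun p q =>
    (hP.smooth p.1 q.1).mul (hP.smooth p.2 q.2)
  have hR : MSmooth (fun y => flat (riem G y)) U := by
    intro p q
    simp only [flat, SelfDual.comp, of_apply, riem_eq]
    exact (hG.smooth.mul (hG.smooth_curvature p.1 p.2)) q.1 q.2
  simp only [frameRiem, SelfDual.flat_inFrame]
  exact (hK.transpose.mul hR).mul hK

theorem smooth_wB : MSmooth (wB J G P) U := by
  intro a b
  simp only [wB, Matrix.sub_apply, SelfDual.block_eq_flat, dotProduct, mulVec]
  exact (contDiffOn_const.mul (ContDiffOn.sum fun p _ => contDiffOn_const.mul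
    (ContDiffOn.sum fun q _ => (smooth_flat hG hP p q).mul contDiffOn_const))).sub contDiffOn_const

theorem smooth_dW (i : Fin 4) : MSmooth (dW J G P i) U :=
  (((smooth_wB hG hP).pdm hG.isOpen i).sub ((smooth_oM hG hP i).mul (smooth_wB hG hP))).add
    ((smooth_wB hG hP).mul (smooth_oM hG hP i))

variable {x : Euc4} (hx : x ∈ U)
include hx

/-- The covariant derivative of the block is the block of the covariant derivative. -/
theorem dW_eq (h : IsSplit J K) (i : Fin 4) :
    dW J G P i x = block (inFrame (P x) (covRiem G x i)) J J := by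
  have hd : pdm (wB J G P) i x = pdm (fun y => block (frameRiem G P y) J J) i x := by
    have hB : MDiff (fun y => block (frameRiem G P y) J J) x := by
      have := (smooth_wB (J := J) hG hP).diff hG.isOpen hx
      intro a b
      simpa [wB] using (this a b).add_const ((1 : M3) a b)
    show pdm (fun y => block (frameRiem G P y) J J - 1) i x = _
    rw [pdm_sub (B := fun _ => (1 : M3)) hB (fun a b => differentiableAt_const _), pdm_const, sub_zero]
  rw [block_inFrame_covRiem hG hP hx h i, adMat_skew h.triple, dW, hd, wB, oM]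
  simp only [Matrix.mul_sub, Matrix.sub_mul, Matrix.mul_neg, Matrix.mul_one, Matrix.one_mul]
  abel

theorem dWf_eq (h : IsSplit J K) (m : Fin 4) :
    dWf J G P x m = block (covFrame G P x m) J J := by
  ext a b
  simp only [dWf, dW_eq hG hP hx h, Matrix.sum_apply, Matrix.smul_apply, smul_eq_mul]
  simp only [SelfDual.block_eq_flat, dotProduct, mulVec, flat, SelfDual.comp, covFrame, of_apply,
    Finset.mul_sum, Finset.sum_mul]
  rw [Finset.sum_comm]
  refine Finset.sum_congr rfl fun p _ => ?_
  rw [Finset.sum_comm]
  exact Finset.sum_congr rfl fun q _ => Finset.sum_congr rfl fun t _ => by ring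

/-- The curvature of the connection matrices of the frame. -/
theorem curvature_omega (i j : Fin 4) :
    curvature (omega G P) i j x =
      (P x).transpose * G x * curvature (gamMat G) i j x * P x := by
  have hU := hG.isOpen
  have hd := hP.smooth.diff hU hx
  have hdd := fun t => (hP.smooth.pdm hU t).diff hU hx
  have hg := hG.diff_gamMat hx
  have ho := fun t => (smooth_omega hG hP t).diff hU hx
  have key : ∀ s t, P x * pdm (omega G P t) s x =
      pdm (gamMat G t) s x * P x + gamMat G t x * (P x * omega G P s x - gamMat G s x * P x) +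
        pdm (pdm P t) s x - (P x * omega G P s x - gamMat G s x * P x) * omega G P t x := by
    intro s t
    have h := pdm_congr (A := fun y => P y * omega G P t y)
      (B := fun y => gamMat G t y * P y + pdm P t y) hU hx (fun y hy => mul_omega hP hy t) s
    rw [pdm_mul hd (ho t), pdm_add ((hg t).mul hd) (hdd t), pdm_mul (hg t) hd] at h
    rw [show P x * omega G P s x - gamMat G s x * P x = pdm P s x by
      rw [mul_omega hP hx s, add_sub_cancel_left]]
    rw [← h]
    abel
  have h1 : P x * curvature (omega G P) i j x = curvature (gamMat G) i j x * P x := by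
    unfold curvature
    rw [Matrix.mul_sub, Matrix.mul_add, Matrix.mul_sub, key i j, key j i,
      pdm_comm hP.smooth hU hx i j]
    simp only [Matrix.mul_sub, Matrix.sub_mul, Matrix.add_mul, Matrix.mul_assoc]
    abel
  calc curvature (omega G P) i j x
      = (P x).transpose * G x * P x * curvature (omega G P) i j x := by
        rw [(hP.frame x hx).1, Matrix.one_mul]
    _ = _ := by rw [Matrix.mul_assoc, h1, ← Matrix.mul_assoc]

/-- The Ricci identity on a Weyl block. -/
theorem ddW_comm (h : IsSplit J K) (i j : Fin 4) :
    ddW J G P i j x - ddW J G P j i x =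
      -(adMat J (curvature (omega G P) i j x) * wB J G P x -
        wB J G P x * adMat J (curvature (omega G P) i j x)) := by
  have hU := hG.isOpen
  have hW := (smooth_wB (J := J) hG hP).diff hU hx
  have hWd := fun t => ((smooth_wB (J := J) hG hP).pdm hU t).diff hU hx
  have ho := fun t => (smooth_oM (J := J) hG hP t).diff hU hx
  have hd : ∀ s t, pdm (dW J G P t) s x = pdm (pdm (wB J G P) t) s x -
      (pdm (oM J G P t) s x * wB J G P x + oM J G P t x * pdm (wB J G P) s x) +
      (pdm (wB J G P) s x * oM J G P t x + wB J G P x * pdm (oM J G P t) s x) := by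
    intro s t
    unfold dW
    rw [pdm_add ((hWd t).sub ((ho t).mul hW)) (hW.mul (ho t)),
      pdm_sub (hWd t) ((ho t).mul hW), pdm_mul (ho t) hW, pdm_mul hW (ho t)]
  have hop : ∀ s t, pdm (oM J G P t) s x = adMat J (pdm (omega G P t) s x) := by
    intro s t
    have ho' := (smooth_omega hG hP t).diff hU hx
    ext a d
    have e : ∀ X : M4, adMat J X a d =
        ∑ p, ∑ q, X p q * adMat J (Matrix.single p q 1) a d := by
      intro X
      conv_lhs => rw [matrix_eq_sum_single X]
      simp only [adMat_sum, Matrix.sum_apply]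
      refine Finset.sum_congr rfl fun p _ => Finset.sum_congr rfl fun q _ => ?_
      conv_lhs => rw [← mul_one (X p q), ← smul_eq_mul, ← Matrix.smul_single, adMat_smul]
      rfl
    show pd (fun y => adMat J (omega G P t y) a d) s x = adMat J (pdm (omega G P t) s x) a d
    rw [e (pdm (omega G P t) s x), pd_congr hU hx (fun y _ => e (omega G P t y)) s,
      pd_sum _ fun p _ => DifferentiableAt.fun_sum fun q _ => (ho' p q).mul_const _]
    refine Finset.sum_congr rfl fun p _ => ?_
    rw [pd_sum _ fun q _ => (ho' p q).mul_const _]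
    refine Finset.sum_congr rfl fun q _ => ?_
    rw [pd_mul (ho' p q) (differentiableAt_const _), pd_const, mul_zero, add_zero]
    rfl
  have hskew := omega_skew hG hP hx
  have hS : adMat J (curvature (omega G P) i j x) = pdm (oM J G P j) i x - pdm (oM J G P i) j x +
      (oM J G P j x * oM J G P i x - oM J G P i x * oM J G P j x) := by
    rw [hop, hop, oM, oM, ← h.adMat_bracket (hskew i) (hskew j), ← adMat_sub, ← adMat_add]
    unfold curvature
    congr 1
    abel
  rw [hS]
  unfold ddW
  rw [hd i j, hd j i, pdm_comm (smooth_wB (J := J) hG hP) hU hx i j]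
  simp only [fun p => hG.gam_comm x p i j]
  unfold dW
  simp only [Matrix.mul_sub, Matrix.sub_mul, Matrix.add_mul, Matrix.mul_add, Matrix.mul_assoc]
  abel

/-- The Ricci identity in the frame. -/
theorem ddWf_comm (h : IsSplit J K) (n m : Fin 4) :
    ddWf J G P x n m - ddWf J G P x m n =
      -(adMat J (Matrix.of fun k l => frameRiem G P x n m k l) * wB J G P x -
        wB J G P x * adMat J (Matrix.of fun k l => frameRiem G P x n m k l)) := by
  have hF : (Matrix.of fun k l => frameRiem G P x n m k l : M4) =
      ∑ i, ∑ j, (P x i n * P x j m) • curvature (omega G P) i j x := by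
    ext k l
    simp only [curvature_omega hG hP hx, Matrix.sum_apply, Matrix.smul_apply, smul_eq_mul,
      of_apply, frameRiem, inFrame, riem_eq, Matrix.mul_assoc]
    refine Finset.sum_congr rfl fun i _ => Finset.sum_congr rfl fun j _ => ?_
    rw [← Matrix.mul_assoc (G x)]
    simp only [mul_apply, transpose_apply, Finset.mul_sum, Finset.sum_mul]
    exact Finset.sum_congr rfl fun a _ => Finset.sum_congr rfl fun b _ =>
      Finset.sum_congr rfl fun c _ => by ring
  have hsw : ddWf J G P x m n = ∑ i, ∑ j, (P x i n * P x j m) • ddW J G P j i x := by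
    simp only [ddWf]
    rw [Finset.sum_comm]
    exact Finset.sum_congr rfl fun i _ => Finset.sum_congr rfl fun j _ => by rw [mul_comm]
  rw [hsw, ddWf, ← Finset.sum_sub_distrib, hF, adMat_sum]
  simp only [adMat_sum, adMat_smul, ← Finset.sum_sub_distrib, Finset.sum_mul, Finset.mul_sum,
    Matrix.smul_mul, Matrix.mul_smul, ← smul_sub, ← Finset.sum_neg_distrib, ← smul_neg,
    ddW_comm hG hP hx h]

/-- The differentiated divergence identity. -/
theorem ddWf_div (hE : IsEinsteinThree G U) (h : IsSplit J K) (n b : Fin 4) (i : Fin 3) :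
    ∑ j, ∑ m, J j b m * ddWf J G P x n m i j = 0 := by
  have hU := hG.isOpen
  have hd := hP.smooth.diff hU hx
  set v : Fin 3 → Fin 3 → Euc4 → Fin 4 → ℝ := fun p q y t => dW J G P t y p q with hv
  have hE0 : ∀ y ∈ U, ∀ p, ∑ q, (J q * (P y).transpose) *ᵥ v p q y = 0 := by
    intro y hy p
    rw [← div_weyl hG hP hy hE h p]
    refine Finset.sum_congr rfl fun q _ => ?_
    rw [← mulVec_mulVec]
    refine congrArg (J q *ᵥ ·) (funext fun m => ?_)
    rw [← dWf_eq hG hP hy h]
    simp [hv, dWf, mulVec, dotProduct, Matrix.sum_apply]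
  have hPd : ∀ s, (pdm P s x).transpose =
      -(omega G P s x * (P x).transpose) - (P x).transpose * (gamMat G s x).transpose := by
    intro s
    have e : pdm P s x = P x * omega G P s x - gamMat G s x * P x := by
      rw [mul_omega hP hx s, add_sub_cancel_left]
    rw [e, transpose_sub, transpose_mul, transpose_mul, omega_skew hG hP hx, Matrix.neg_mul]
  -- the derivative of the identity in the coordinate `s`
  have hder : ∀ s, ∀ p, ∑ q, ((J q * (pdm P s x).transpose) *ᵥ v p q x +
      (J q * (P x).transpose) *ᵥ fun t => pdm (dW J G P t) s x p q) = 0 := by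
    intro s p
    funext c
    have hterm : ∀ q t, DifferentiableAt ℝ
        (fun y => (J q * (P y).transpose) c t * v p q y t) x := fun q t =>
      (((MSmooth.mul (A := fun _ => J q) (fun _ _ => contDiffOn_const) hP.smooth.transpose).diff
        hU hx) c t).fun_mul (((smooth_dW hG hP t).diff hU hx) p q)
    have h0 : pd (fun y => ∑ q, ∑ t, (J q * (P y).transpose) c t * v p q y t) s x = 0 := by
      rw [pd_congr (f := fun y => ∑ q, ∑ t, (J q * (P y).transpose) c t * v p q y t)
        (g := fun _ => 0) hU hx (fun y hy => ?_) s, pd_const]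
      have := congrFun (hE0 y hy p) c
      simpa [mulVec, dotProduct, Finset.sum_apply] using this
    rw [pd_sum _ fun q _ => DifferentiableAt.fun_sum fun t _ => hterm q t] at h0
    rw [Finset.sum_apply, Pi.zero_apply, ← h0]
    refine Finset.sum_congr rfl fun q _ => ?_
    rw [pd_sum _ fun t _ => hterm q t, Pi.add_apply]
    simp only [mulVec, dotProduct, ← Finset.sum_add_distrib]
    refine Finset.sum_congr rfl fun t _ => ?_
    have hJP : MDiff (fun y => J q * (P y).transpose) x :=
      (MSmooth.mul (A := fun _ => J q) (fun _ _ => contDiffOn_const) hP.smooth.transpose).diff hU hx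
    rw [pd_mul (hJP c t) (((smooth_dW hG hP t).diff hU hx) p q)]
    have e : pd (fun y => (J q * (P y).transpose) c t) s x =
        (J q * (pdm P s x).transpose) c t := by
      have h1 := congrFun (congrFun (pdm_mul (A := fun _ => J q)
        (B := fun y => (P y).transpose) (fun _ _ => differentiableAt_const _) hd.transpose s
        : pdm (fun y => J q * (P y).transpose) s x = _) c) t
      rwa [pdm_const, Matrix.zero_mul, zero_add, pdm_transpose] at h1
    rw [e]
    rfl
  have hT : ∀ s, ∑ q, (J q * (P x).transpose) *ᵥ (fun t => ddW J G P s t x i q) = 0 := by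
    intro s
    have e : ∀ q, (fun t => ddW J G P s t x i q) =
        (fun t => pdm (dW J G P t) s x i q) - ∑ l, oM J G P s x i l • v l q x +
          ∑ l, oM J G P s x l q • v i l x - (gamMat G s x).transpose *ᵥ v i q x := by
      intro q
      funext t
      simp [hv, ddW, mul_apply, Matrix.sum_apply, mulVec, dotProduct, gamMat, mul_comm]
    have h1 := hder s i
    simp only [hPd, Matrix.mul_sub, Matrix.mul_neg, sub_mulVec, neg_mulVec,
      Finset.sum_add_distrib, Finset.sum_sub_distrib, Finset.sum_neg_distrib] at h1
    have h2 : ∑ q, ∑ l, oM J G P s x i l • ((J q * (P x).transpose) *ᵥ v l q x) = 0 := by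
      rw [Finset.sum_comm]
      simp only [← Finset.smul_sum, hE0 x hx, smul_zero, Finset.sum_const_zero]
    have h3 : ∑ q, ∑ l, oM J G P s x l q • ((J q * (P x).transpose) *ᵥ v i l x) =
        -∑ q, (J q * (omega G P s x * (P x).transpose)) *ᵥ v i q x := by
      rw [Finset.sum_comm]
      have e2 : ∀ l, ∑ q, oM J G P s x l q • ((J q * (P x).transpose) *ᵥ v i l x) =
          omega G P s x *ᵥ ((J l * (P x).transpose) *ᵥ v i l x) -
            (J l * (omega G P s x * (P x).transpose)) *ᵥ v i l x := by
        intro l
        simp only [← smul_mulVec, ← sum_mulVec, ← Matrix.smul_mul, ← Finset.sum_mul, oM,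
          ← h.ad_eq (omega_skew hG hP hx s) l]
        rw [mulVec_mulVec, Matrix.sub_mul, sub_mulVec, Matrix.mul_assoc, Matrix.mul_assoc]
      rw [Finset.sum_congr rfl fun l _ => e2 l, Finset.sum_sub_distrib, ← mulVec_sum, hE0 x hx,
        mulVec_zero, zero_sub]
    simp only [e, mulVec_sub, mulVec_add, mulVec_sum, mulVec_smul, Finset.sum_add_distrib,
      Finset.sum_sub_distrib, h2, h3, mulVec_mulVec, Matrix.mul_assoc]
    refine Eq.trans ?_ h1
    abel
  have hfin : ∀ j, ∑ m, J j b m * ddWf J G P x n m i j =
      ∑ s, P x s n * ((J j * (P x).transpose) *ᵥ (fun t => ddW J G P s t x i j)) b := by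
    intro j
    simp only [ddWf, Matrix.sum_apply, Matrix.smul_apply, smul_eq_mul, mulVec, dotProduct,
      mul_apply, transpose_apply, Finset.mul_sum, Finset.sum_mul]
    rw [Finset.sum_comm]
    refine Finset.sum_congr rfl fun s _ => ?_
    rw [Finset.sum_comm]
    exact Finset.sum_congr rfl fun t _ => Finset.sum_congr rfl fun m _ => by ring
  simp only [hfin]
  rw [Finset.sum_comm]
  simp only [← Finset.mul_sum]
  refine Finset.sum_eq_zero fun s _ => mul_eq_zero_of_right _ ?_
  simpa [Finset.sum_apply] using congrFun (hT s) b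

/-- The Laplacian of a Weyl block. -/
theorem weitzenboeck (hE : IsEinsteinThree G U) (h : IsSplit J K)
    (hs : (wB J G P x).IsSymm) (htr : (wB J G P x).trace = 0) :
    ∑ n, ddWf J G P x n n = Spectral.react (wB J G P x) :=
  weitz_alg h (isCurvTen_frameRiem hG hx)
    (h.mixed _ (isCurvTen_frameRiem hG hx) (ricTen_frameRiem hG hP hx hE)) rfl hs htr _
    (ddWf_div hG hP hx hE h) (ddWf_comm hG hP hx h)

end

end Vale.Agent.P211.Local
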